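import Mathlib
import Vale.Agent.P184.Vanishing
import Vale.Agent.P184.Action
import Vale.Agent.P184.Length
import Vale.Agent.P184.Amenable

/-!
# P184: the ℓ¹-Bass conjecture for linear representations

Hand-in: the Hattori–Stallings coefficients of idempotent matrices over `ℓ¹(G)` vanish at every
class detected by a finite-dimensional representation with an eigenvalue which is not a root of
unity; hence the ℓ¹-Bass conjecture holds for torsion-free linear groups in positive characteristic.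
They also vanish at every isometry of positive translation length in an action on a metric space
with the quadrilateral inequality (such as a CAT(0) space), and at every undistorted element with
amenable centraliser.
-/

namespace Vale.Agent.Results.P184.EllOneBassLinear

open Vale.Agent.P184

universe u v w

theorem result :
    (∀ (G : Type u) [Group G] (K : Type v) [Field K] (n : ℕ) (ρ : G →* GL (Fin n) K) (g : G)
      (μ : AlgebraicClosure K),
      ((ρ g : Matrix (Fin n) (Fin n) K).map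
        (algebraMap K (AlgebraicClosure K))).charpoly.IsRoot μ →
      (∀ k : ℕ, 0 < k → μ ^ k ≠ 1) →
      ∀ (q : ℕ) (e : Fin q → Fin q → G → ℂ), IsL1Idempotent e → hsCoeff e g = 0) ∧
    (∀ (G : Type u) [Group G] (K : Type v) [Field K] (p : ℕ) [CharP K p], p.Prime →
      ∀ (n : ℕ) (ρ : G →* GL (Fin n) K), Function.Injective ρ →
      ∀ (g : G), ¬ IsOfFinOrder g →
      ∀ (q : ℕ) (e : Fin q → Fin q → G → ℂ), IsL1Idempotent e → hsCoeff e g = 0) ∧
    (∀ (G : Type u) [Group G] (K : Type v) [Field K] (p : ℕ) [CharP K p], p.Prime →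
      ∀ (n : ℕ) (ρ : G →* GL (Fin n) K), Function.Injective ρ →
      (∀ g : G, g ≠ 1 → ¬ IsOfFinOrder g) →
      ∀ (q : ℕ) (e : Fin q → Fin q → G → ℂ), IsL1Idempotent e →
        (∀ g : G, g ≠ 1 → hsCoeff e g = 0) ∧ ∃ m : ℕ, hsCoeff e (1 : G) = m) ∧
    (∀ (G : Type u) [Group G] (g : G),
      (∀ (s : Finset G) (x : Subgroup.closure (s : Set G)), IsConj g (x : G) → LipHom x) →
      ∀ (q : ℕ) (e : Fin q → Fin q → G → ℂ), IsL1Idempotent e → hsCoeff e g = 0) ∧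
    (∀ (G : Type u) [Group G] (X : Type w) [MetricSpace X] [MulAction G X],
      (∀ (h : G) (p p' : X), dist (h • p) (h • p') = dist p p') →
      (∀ a b c d : X,
        dist a c ^ 2 + dist b d ^ 2 ≤ dist a d ^ 2 + dist b c ^ 2 + 2 * dist a b * dist c d) →
      ∀ (g : G) (o : X) (t : ℝ), 0 < t → (∀ n : ℕ, t * n ≤ dist o (g ^ n • o)) →
      ∀ (q : ℕ) (e : Fin q → Fin q → G → ℂ), IsL1Idempotent e → hsCoeff e g = 0) ∧
    (∀ (G : Type u) [Group G] (g : G) (ℓ : G → ℝ),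
      (∀ a b, ℓ (a * b) ≤ ℓ a + ℓ b) → (∀ a, ℓ a⁻¹ = ℓ a) →
      ∀ (t : ℝ), 0 < t → (∀ n : ℕ, t * n ≤ ℓ (g ^ n)) →
      (Subgroup.zpowers (⟨g, Subgroup.mem_centralizer_singleton_iff.mpr rfl⟩ :
        Subgroup.centralizer ({g} : Set G))).FiniteIndex →
      ∀ (q : ℕ) (e : Fin q → Fin q → G → ℂ), IsL1Idempotent e → hsCoeff e g = 0) ∧
    (∀ (G : Type u) [Group G] (g : G) (ℓ : G → ℝ),
      (∀ a b, ℓ (a * b) ≤ ℓ a + ℓ b) → (∀ a, ℓ a⁻¹ = ℓ a) →
      ∀ (φ : Subgroup.centralizer ({g} : Set G) → ℝ), (∀ a b, φ (a * b) = φ a + φ b) →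
      φ ⟨g, Subgroup.mem_centralizer_singleton_iff.mpr rfl⟩ ≠ 0 →
      ∀ (L D : ℝ), 0 ≤ L → (∀ z, |φ z| ≤ L * ℓ (z : G) + D) →
      ∀ (q : ℕ) (e : Fin q → Fin q → G → ℂ), IsL1Idempotent e → hsCoeff e g = 0) ∧
    (∀ (G : Type u) [Group G] (g : G) (ℓ : G → ℝ),
      (∀ a b, ℓ (a * b) ≤ ℓ a + ℓ b) → (∀ a, ℓ a⁻¹ = ℓ a) →
      ∀ (t : ℝ), 0 < t → (∀ n : ℕ, t * n ≤ ℓ (g ^ n)) →
      HasInvariantMean (Subgroup.centralizer ({g} : Set G)) →
      ∀ (q : ℕ) (e : Fin q → Fin q → G → ℂ), IsL1Idempotent e → hsCoeff e g = 0) ∧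
    (∀ (G : Type u) [Group G],
      (∀ g : G, ¬ IsOfFinOrder g → ∃ (ℓ : G → ℝ) (t : ℝ), (∀ a b, ℓ (a * b) ≤ ℓ a + ℓ b) ∧
        (∀ a, ℓ a⁻¹ = ℓ a) ∧ 0 < t ∧ (∀ n : ℕ, t * n ≤ ℓ (g ^ n)) ∧
        HasInvariantMean (Subgroup.centralizer ({g} : Set G))) →
      (ConjClasses.mk '' {g : G | IsOfFinOrder g}).Finite →
      ∃ F : Finset (ConjClasses G), (∀ C ∈ F, ∃ g : G, ConjClasses.mk g = C ∧ IsOfFinOrder g) ∧
        ∀ (q : ℕ) (e : Fin q → Fin q → G → ℂ), IsL1Idempotent e →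
          ∀ g : G, ConjClasses.mk g ∉ F → hsCoeff e g = 0) := by
  refine ⟨?_, ?_, ?_, ?_, ?_, ?_, ?_, ?_, ?_⟩
  · intro G _ K _ n ρ g μ hroot hμ q e he
    exact hsCoeff_eq_zero_of_eigen ρ g μ hroot hμ he
  · intro G _ K _ p _ hp n ρ hρ g hg q e he
    haveI : Fact p.Prime := ⟨hp⟩
    exact hsCoeff_eq_zero_of_not_isOfFinOrder p ρ hρ g hg he
  · intro G _ K _ p _ hp n ρ hρ htf q e he
    haveI : Fact p.Prime := ⟨hp⟩
    have h : ∀ g : G, g ≠ 1 → hsCoeff e g = 0 := fun g hg =>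
      hsCoeff_eq_zero_of_not_isOfFinOrder p ρ hρ g (htf g hg) he
    exact ⟨h, exists_nat_hsCoeff_one he h⟩
  · intro G _ g hloc q e he
    exact hsCoeff_eq_zero g hloc he
  · intro G _ X _ _ hiso hquad g o t ht hlen q e he
    exact hsCoeff_eq_zero_of_translation hiso hquad g o ht hlen he
  · intro G _ g ℓ hmul hinv t ht hlin hfin q e he
    exact hsCoeff_eq_zero_of_length g ℓ hmul hinv ht hlin hfin he
  · intro G _ g ℓ hmul hinv φ hφ hφg L D hL hb q e he
    exact hsCoeff_eq_zero_of_char g ℓ hmul hinv φ hφ hφg L D hL hb he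
  · intro G _ g ℓ hmul hinv t ht hlin hZ q e he
    exact hsCoeff_eq_zero_of_mean g ℓ hmul hinv ht hlin hZ he
  · intro G _ hinf hfin
    exact bass_of_mean hinf hfin

end Vale.Agent.Results.P184.EllOneBassLinear
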